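import Vale.Agent.P129BU.Abs
import Vale.Agent.P129BZ.Scal
import Vale.Agent.P129B.Real

/-!
# Combinations of a block of a sequence with prescribed total modulus
-/

set_option linter.unusedSectionVars false

namespace Vale.Agent.P129B.Stb

universe v

variable {N : Type v} [ZM N]
  {R : Type*} [Field R] [LinearOrder R] [IsStrictOrderedRing R] [Coded N R] [RF N R]
  {K : Type*} [Field K] [Algebra R K] [Nm K R] [KA R K] [Coded N K] [KF N R K]
  {F : Type*} [AddCommGroup F] [Module K F] [Nm F R] [NA R K F] [Coded N F] [NS N R K F]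

variable (K) in
/-- `u` is a combination of `f n, …, f (M - 1)` with coefficients of total modulus `t` -/
def IK (f : NN N → F) (n M : NN N) (t : R) (u : F) : Prop :=
  ∃ b : NN N → K, Intl N b ∧ (∀ i, i < n → b i = 0) ∧ (∀ i, M ≤ i → b i = 0) ∧
    isum (fun i => nm (b i)) M = t ∧ u = isum (fun i => b i • f i) M

theorem defF_ik {α : Type*} [Coded N α] {f : α → NN N → F} {n M : α → NN N} {t : α → R}
    {u : α → F} (hf : DefF N f) (hn : DefF N n) (hM : DefF N M) (ht : DefF N t) (hu : DefF N u) :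
    DefF N (fun a => IK K (f a) (n a) (M a) (t a) (u a)) := by
  have h : DefF N (fun p : (α × (NN N → K)) × NN N => f p.1.1 p.2) :=
    DefF.ap (hf.comp (by fun_prop)) (by fun_prop)
  unfold IK
  exact DefF.ex (DefF.and (by fun_prop) (DefF.and (by fun_prop) (DefF.and (by fun_prop)
    (DefF.eq (by fun_prop) (DefF.isum
      (DefF.smul (by fun_prop) h) (by fun_prop))))))

variable {f : NN N → F} {n n' M M' L : NN N} {t s : R} {u w : F}

theorem IK.mono [Intl N f] (h : IK K f n M t u) (hn : n' ≤ n) (hM : M ≤ M') :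
    IK K f n' M' t u := by
  obtain ⟨b, h0, h1, h2, h3, h4⟩ := h
  refine ⟨b, h0, fun i hi => h1 i (hi.trans_le hn), fun i hi => h2 i (hM.trans hi), ?_, ?_⟩
  · rw [← h3]
    exact isum_of_le (by fun_prop) hM fun i hi _ => by rw [h2 i hi, nm_zero]
  · rw [h4]
    exact (isum_of_le (by fun_prop) hM fun i hi _ => by rw [h2 i hi, zero_smul]).symm

theorem IK.smul [Intl N f] (h : IK K f n M t u) (c : K) : IK K f n M (nm c * t) (c • u) := by
  obtain ⟨b, h0, h1, h2, h3, h4⟩ := h
  refine ⟨fun i => c * b i, DefF.toIntl (by fun_prop), fun i hi => by simp [h1 i hi],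
    fun i hi => by simp [h2 i hi], ?_, ?_⟩
  · rw [← h3, mul_isum _ (by fun_prop)]
    exact isum_congr (by fun_prop) (by fun_prop) fun i _ => KA.nm_mul _ _
  · rw [h4, smul_isum _ (by fun_prop)]
    exact isum_congr (by fun_prop) (by fun_prop) fun i _ => smul_smul _ _ _

theorem IK.add [Intl N f] (h : IK K f n M t u) (h' : IK K f M L s w) (hn : n ≤ M) (hM : M ≤ L) :
    IK K f n L (t + s) (u + w) := by
  obtain ⟨b, h0, h1, h2, h3, h4⟩ := h
  obtain ⟨b', h0', h1', h2', h3', h4'⟩ := h'
  have e3 : isum (fun i => nm (b i)) L = t := by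
    rw [← h3]
    exact isum_of_le (by fun_prop) hM fun i hi _ => by rw [h2 i hi, nm_zero]
  have e4 : u = isum (fun i => b i • f i) L := by
    rw [h4]
    exact (isum_of_le (by fun_prop) hM fun i hi _ => by rw [h2 i hi, zero_smul]).symm
  refine ⟨fun i => b i + b' i, DefF.toIntl (by fun_prop), fun i hi => ?_, fun i hi => ?_, ?_, ?_⟩
  · show b i + b' i = 0
    rw [h1 i hi, h1' i (hi.trans_le hn), add_zero]
  · show b i + b' i = 0
    rw [h2 i (hM.trans hi), h2' i hi, add_zero]
  · rw [← e3, ← h3', ← isum_add (by fun_prop) (by fun_prop)]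
    refine isum_congr (by fun_prop) (by fun_prop) fun i _ => ?_
    show nm (b i + b' i) = nm (b i) + nm (b' i)
    rcases lt_or_ge i M with hi | hi
    · rw [h1' i hi, add_zero, nm_zero, add_zero]
    · rw [h2 i hi, zero_add, nm_zero, zero_add]
  · rw [e4, h4', ← isum_add (by fun_prop) (by fun_prop)]
    exact isum_congr (by fun_prop) (by fun_prop) fun i _ => (add_smul _ _ _).symm

theorem IK.zero (f : NN N → F) (n : NN N) : IK K f n n (0 : R) 0 :=
  ⟨fun _ => 0, inferInstance, fun _ _ => rfl, fun _ _ => rfl, by simp [nm_zero], by simp⟩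

theorem IK.nm_le [Intl N f] (h : IK K f n M t u) (hf : ∀ i, nm (f i) ≤ 1) : nm u ≤ t := by
  obtain ⟨b, h0, -, -, rfl, rfl⟩ := h
  refine NN.ind (P := fun M => nm (isum (fun i => b i • f i) M) ≤ isum (fun i => nm (b i)) M)
    (by fun_prop) (by simp [nm_zero]) (fun M ih => ?_) M
  rw [isum_succ (by fun_prop), isum_succ (by fun_prop)]
  refine (NA.nm_add _ _).trans (add_le_add ih ?_)
  rw [NA.nm_smul]
  exact mul_le_of_le_one_right (nm_nonneg _) (hf M)

theorem IK.self (f : NN N → F) [Intl N f] (n : NN N) : IK K f n (n + 1) (1 : R) (f n) := by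
  classical
  refine ⟨fun i => if i = n then 1 else 0, DefF.toIntl (by fun_prop),
    fun i hi => if_neg hi.ne, fun i hi => if_neg (NN.add_one_le_iff.1 hi).ne', ?_, ?_⟩
  · rw [isum_single (j := n) (by fun_prop) (NN.lt_add_one n) fun i _ hi => by
      simp [hi, nm_zero]]
    simp
  · rw [isum_single (j := n) (by fun_prop) (NN.lt_add_one n) fun i _ hi => by simp [hi]]
    simp

theorem ad_self (f : NN N → F) [Intl N f] : Ad (fun n M u => IK K f n M (1 : R) u) f :=
  ad_of_forall (fun _ _ _ _ h k => k.mono h le_rfl) fun n =>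
    ⟨n + 1, (NN.lt_add_one n).le, IK.self f n⟩

/-- **A stable sequence of normalised combinations**; `ev u x` is the value of `u` at `x`. -/
theorem exists_stable_ik {E : Type*} [AddCommGroup E] [Module K E] [Nm E R] [NA R K E]
    [Coded N E] [NS N R K E] (ev : F → E → K) (hev : DefF N (fun p : F × E => ev p.1 p.2))
    (hle : ∀ u x, nm (ev u x) ≤ nm u * nm x) (f : NN N → F) [Intl N f] (hf : ∀ i, nm (f i) ≤ 1) :
    ∃ g : NN N → F, Intl N g ∧ (∀ n, ∃ M, n ≤ M ∧ IK K f n M (1 : R) (g n)) ∧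
      ∀ h, Intl N h → Ad (fun n M u => IK K f n M (1 : R) u) h →
        Do (fun u x => nm (ev u x)) g h →
        LeAdd (fun u x => nm (ev u x)) (fun x => nm x ≤ 1) g h 0 :=
  exists_stable RF.lub (hp R) (DefF.hp DefF.id) hp_pos
    (fun r hr => (exists_hp_lt N hr).imp fun k hk => hk k le_rfl) hev.nm (by fun_prop)
    (defF_ik (by fun_prop) (by fun_prop) (by fun_prop) (by fun_prop) (by fun_prop))
    (fun _ _ => nm_nonneg _) ⟨0, by simp⟩
    (fun _ _ u x h hx => (hle u x).trans (mul_le_one₀ (h.nm_le hf) (nm_nonneg x) hx))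
    f (ad_self f)

end Vale.Agent.P129B.Stb
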