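import Vale.Agent.P129B.Choice

/-!
# Stable sequences, abstractly

`val u x` is the size of the functional `u` at the vector `x`, `B` is the unit ball, `IK n M u`
says that `u` is a normalised combination of the members `n, …, M - 1` of a fixed sequence.
-/

set_option linter.unusedSectionVars false

namespace Vale.Agent.P129B.Stb

universe v

variable {N : Type v} [ZM N] {Φ E R : Type*}

/-- sequences of normalised combinations moving to infinity -/
def Ad (IK : NN N → NN N → Φ → Prop) (g : NN N → Φ) : Prop :=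
  ∀ n, ∃ n₀, ∀ m, n₀ ≤ m → ∃ M, n ≤ M ∧ IK n M (g m)

section

variable [LE R]

/-- `u` is dominated by the tail of `g` from `n` on -/
def Dm (val : Φ → E → R) (g : NN N → Φ) (n : NN N) (u : Φ) : Prop :=
  ∀ x r, (∀ j, n ≤ j → val (g j) x ≤ r) → val u x ≤ r

/-- every tail of `g` dominates a tail of `h` -/
def Do (val : Φ → E → R) (g h : NN N → Φ) : Prop :=
  ∀ n, ∃ n₀, ∀ m, n₀ ≤ m → Dm val g n (h m)

/-- the asymptotic size of `g` on `B` is at most `r` -/
def OscLe (val : Φ → E → R) (B : E → Prop) (g : NN N → Φ) (r : R) : Prop :=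
  ∀ x, B x → ∃ n₀, ∀ n, n₀ ≤ n → val (g n) x ≤ r

/-- the size of `g` is at most the size of `h` plus `ε` -/
def LeAdd [LT R] [Add R] (val : Φ → E → R) (B : E → Prop) (g h : NN N → Φ) (ε : R) : Prop :=
  ∀ r s, r + ε < s → OscLe val B h r → OscLe val B g s

variable {val : Φ → E → R} {B : E → Prop} {IK : NN N → NN N → Φ → Prop}

theorem Dm.mono {g : NN N → Φ} {n n' : NN N} {u : Φ} (h : Dm val g n u) (hn : n' ≤ n) :
    Dm val g n' u := fun x r H => h x r fun j hj => H j (hn.trans hj)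

theorem Do.refl (g : NN N → Φ) : Do val g g := fun n => ⟨n, fun m hm _ _ h => h m hm⟩

theorem Do.trans {g h k : NN N → Φ} (h1 : Do val g h) (h2 : Do val h k) : Do val g k := by
  intro n
  obtain ⟨M, hM⟩ := h1 n
  obtain ⟨n₀, hn₀⟩ := h2 M
  exact ⟨n₀, fun m hm x r h => hn₀ m hm x r fun j hj => hM j hj x r h⟩

theorem OscLe.of_do {g h : NN N → Φ} {r : R} (hg : OscLe val B g r) (hd : Do val g h) :
    OscLe val B h r := fun x h1 => by
  obtain ⟨n, hn⟩ := hg x h1
  obtain ⟨n₀, hn₀⟩ := hd n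
  exact ⟨n₀, fun m hm => hn₀ m hm x r hn⟩

theorem do_of_forall {g h : NN N → Φ} (k : NN N) (H : ∀ n, k ≤ n → Dm val g n (h n)) :
    Do val g h := fun n => ⟨max n k, fun m hm =>
  (H m ((le_max_right _ _).trans hm)).mono ((le_max_left _ _).trans hm)⟩

theorem ad_of_forall (hmono : ∀ n n' M u, n' ≤ n → IK n M u → IK n' M u) {h : NN N → Φ}
    (H : ∀ n, ∃ M, n ≤ M ∧ IK n M (h n)) : Ad IK h := fun n => ⟨n, fun m hm => by
  obtain ⟨M, h1, h2⟩ := H m
  exact ⟨M, hm.trans h1, hmono _ _ _ _ hm h2⟩⟩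

theorem block_step {g : NN N → Φ} (hg : Ad IK g) (n M : NN N) :
    ∃ n' M', n < n' ∧ M ≤ M' ∧ IK M M' (g n') := by
  obtain ⟨n₀, hn₀⟩ := hg M
  obtain ⟨L, h1, h2⟩ := hn₀ (max n₀ (n + 1)) (le_max_left _ _)
  exact ⟨_, L, (NN.lt_add_one n).trans_le (le_max_right _ _), h1, h2⟩

end

theorem OscLe.mono [Preorder R] {val : Φ → E → R} {B : E → Prop} {g : NN N → Φ} {r s : R}
    (h : OscLe val B g r) (hrs : r ≤ s) : OscLe val B g s := fun x h1 => by
  obtain ⟨n₀, hn₀⟩ := h x h1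
  exact ⟨n₀, fun n hn => (hn₀ n hn).trans hrs⟩

section Def

variable {α : Type*} [Coded N α] [Coded N Φ] [Coded N E] [Coded N R] [Tot N E] [Tot N R]
  {val : Φ → E → R} {B : E → Prop} {IK : NN N → NN N → Φ → Prop}

theorem defF_ad (hIK : DefF N (fun p : NN N × NN N × Φ => IK p.1 p.2.1 p.2.2))
    {g : α → NN N → Φ} (hg : DefF N g) : DefF N (fun a => Ad IK (g a)) := by
  have h : DefF N (fun q : (((α × NN N) × NN N) × NN N) × NN N =>
      IK q.1.1.1.2 q.2 (g q.1.1.1.1 q.1.2)) :=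
    DefF.comp (f := fun p : NN N × NN N × Φ => IK p.1 p.2.1 p.2.2)
      (g := fun q : (((α × NN N) × NN N) × NN N) × NN N => (q.1.1.1.2, q.2, g q.1.1.1.1 q.1.2))
      hIK (DefF.pair (by fun_prop) (DefF.pair (by fun_prop)
        (DefF.ap (hg.comp (by fun_prop)) (by fun_prop))))
  unfold Ad
  exact DefF.allT (DefF.exT (DefF.allT (DefF.imp (by fun_prop)
    (DefF.exT (DefF.and (by fun_prop) h)))))

variable [LE R] [DefLE N R]

theorem defF_dm (hval : DefF N (fun p : Φ × E => val p.1 p.2)) {g : α → NN N → Φ}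
    {n : α → NN N} {u : α → Φ} (hg : DefF N g) (hn : DefF N n) (hu : DefF N u) :
    DefF N (fun a => Dm val (g a) (n a) (u a)) := by
  unfold Dm
  exact DefF.allT (DefF.allT (DefF.imp (DefF.allT (DefF.imp (by fun_prop)
    (DefF.le (hval.comp2 (DefF.ap (hg.comp (by fun_prop)) (by fun_prop)) (by fun_prop))
      (by fun_prop)))) (DefF.le (hval.comp2 (by fun_prop) (by fun_prop)) (by fun_prop))))

theorem defF_do (hval : DefF N (fun p : Φ × E => val p.1 p.2)) {g h : α → NN N → Φ}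
    (hg : DefF N g) (hh : DefF N h) : DefF N (fun a => Do val (g a) (h a)) := by
  unfold Do
  exact DefF.allT (DefF.exT (DefF.allT (DefF.imp (by fun_prop)
    (defF_dm hval (hg.comp (by fun_prop)) (by fun_prop)
      (DefF.ap (hh.comp (by fun_prop)) (by fun_prop))))))

theorem defF_oscLe (hval : DefF N (fun p : Φ × E => val p.1 p.2)) (hB : DefF N B)
    {g : α → NN N → Φ} {r : α → R} (hg : DefF N g) (hr : DefF N r) :
    DefF N (fun a => OscLe val B (g a) (r a)) := by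
  unfold OscLe
  exact DefF.allT (DefF.imp (by fun_prop) (DefF.exT (DefF.allT (DefF.imp (by fun_prop)
    (DefF.le (hval.comp2 (DefF.ap (hg.comp (by fun_prop)) (by fun_prop)) (by fun_prop))
      (by fun_prop))))))

theorem defF_leAdd [LT R] [Add R] [DefLT N R] [DefAdd N R]
    (hval : DefF N (fun p : Φ × E => val p.1 p.2)) (hB : DefF N B)
    {g h : α → NN N → Φ} {r : α → R} (hg : DefF N g) (hh : DefF N h) (hr : DefF N r) :
    DefF N (fun a => LeAdd val B (g a) (h a) (r a)) := by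
  unfold LeAdd
  exact DefF.allT (DefF.allT (DefF.imp (by fun_prop) (DefF.imp
    (defF_oscLe hval hB (hh.comp (by fun_prop)) (by fun_prop))
    (defF_oscLe hval hB (hg.comp (by fun_prop)) (by fun_prop)))))

end Def

section Main

variable [Coded N Φ] [Coded N E] [Coded N R] [Tot N Φ] [Tot N E] [Tot N R] [Field R]
  [LinearOrder R] [IsStrictOrderedRing R] [DefLE N R] [DefLT N R] [DefAdd N R] [DefNeg N R]
  {val : Φ → E → R} {B : E → Prop} {IK : NN N → NN N → Φ → Prop}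

/-- One step towards a stable sequence. -/
theorem stable_step
    (lub : ∀ S : Set R, Intl N S → S.Nonempty → BddAbove S → ∃ c, IsLUB S c)
    (hval : DefF N (fun p : Φ × E => val p.1 p.2)) (hB : DefF N B)
    (hIK : DefF N (fun p : NN N × NN N × Φ => IK p.1 p.2.1 p.2.2))
    (h0 : ∀ u x, 0 ≤ val u x) (hne : ∃ x, B x) (h1 : ∀ n M u x, IK n M u → B x → val u x ≤ 1)
    {g : NN N → Φ} (hgI : Intl N g) (hg : Ad IK g) {ε : R} (hε : 0 < ε) :
    ∃ t, Intl N t ∧ Ad IK t ∧ Do val g t ∧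
      ∀ h, Intl N h → Ad IK h → Do val g h → LeAdd val B t h ε := by
  let S : Set R := {r | ∃ h : NN N → Φ, Intl N h ∧ Ad IK h ∧ Do val g h ∧ OscLe val B h (-r)}
  have hS : Intl N S := by
    have hP : DefF N (fun r : R =>
        ∃ h : NN N → Φ, Intl N h ∧ Ad IK h ∧ Do val g h ∧ OscLe val B h (-r)) :=
      DefF.ex (DefF.and (defF_ad hIK (by fun_prop)) (DefF.and
        (defF_do hval (by fun_prop) (by fun_prop))
        (defF_oscLe hval hB (by fun_prop) (by fun_prop))))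
    exact intl_setOfT hP
  have hg1 : OscLe val B g 1 := by
    intro x hx
    obtain ⟨n₀, hn₀⟩ := hg 0
    refine ⟨n₀, fun n hn => ?_⟩
    obtain ⟨M, -, hM⟩ := hn₀ n hn
    exact h1 _ _ _ _ hM hx
  have hbdd : BddAbove S := by
    refine ⟨0, ?_⟩
    rintro r ⟨h, -, -, -, hr⟩
    obtain ⟨x, hx⟩ := hne
    obtain ⟨n₀, hn₀⟩ := hr x hx
    have := (h0 _ _).trans (hn₀ n₀ le_rfl)
    linarith
  obtain ⟨c, hc⟩ := lub S hS ⟨-1, g, hgI, hg, Do.refl g, by rwa [neg_neg]⟩ hbdd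
  obtain ⟨r₀, ⟨t, k0, k1, k2, k3⟩, k4, -⟩ := hc.exists_between (show c - ε < c by linarith)
  refine ⟨t, k0, k1, k2, fun h l0 l1 l2 r s hrs hr => k3.mono ?_⟩
  have : -r ≤ c := hc.1 ⟨h, l0, l1, l2, by rwa [neg_neg]⟩
  linarith

omit [Tot N Φ] [Field R] [IsStrictOrderedRing R] [DefLT N R] [DefAdd N R] [DefNeg N R] in
theorem diag_step (hval : DefF N (fun p : Φ × E => val p.1 p.2)) (G : NN N → NN N → Φ)
    [Intl N G] (hG : ∀ k, Ad IK (G k)) (hd : ∀ k, Do val (G k) (G (k + 1))) (n : NN N) :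
    ∃ m, (∃ M, n ≤ M ∧ IK n M (G n m)) ∧ ∀ k, k ≤ n → Dm val (G k) n (G n m) := by
  have hGd : DefF N G := DefF.ofIntl G
  have hd' : ∀ k l, k ≤ l → Do val (G k) (G l) := fun k l hkl =>
    NN.le_ind (P := fun l => Do val (G k) (G l)) (defF_do hval (DefF.const _) hGd) (Do.refl _)
      (fun l _ ih => ih.trans (hd l)) hkl
  have e1 : ∀ l, l ≤ n + 1 → ∃ n₀, ∀ m, n₀ ≤ m → ∀ k, k < l → Dm val (G k) n (G n m) := by
    refine NN.ind (P := fun l => l ≤ n + 1 →
      ∃ n₀, ∀ m, n₀ ≤ m → ∀ k, k < l → Dm val (G k) n (G n m)) ?_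
      (fun _ => ⟨0, fun m _ k hk => absurd hk (NN.not_lt_zero' k)⟩) fun l ih hl => ?_
    · exact DefF.imp (by fun_prop) (DefF.exT (DefF.allT (DefF.imp (by fun_prop) (DefF.allT
        (DefF.imp (by fun_prop) (defF_dm hval (hGd.comp (by fun_prop)) (by fun_prop)
          (DefF.ap (DefF.const (G n)) (by fun_prop))))))))
    · obtain ⟨n₀, hn₀⟩ := ih ((NN.lt_add_one l).le.trans hl)
      obtain ⟨n₁, hn₁⟩ := hd' l n (le_of_add_le_add_right hl) n
      refine ⟨max n₀ n₁, fun m hm k hk => ?_⟩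
      rcases NN.lt_add_one_cases hk with h | rfl
      · exact hn₀ m ((le_max_left _ _).trans hm) k h
      · exact hn₁ m ((le_max_right _ _).trans hm)
  obtain ⟨n₀, hn₀⟩ := e1 (n + 1) le_rfl
  obtain ⟨n₁, hn₁⟩ := hG n n
  exact ⟨max n₀ n₁, hn₁ _ (le_max_right _ _), fun k hk =>
    hn₀ _ (le_max_left _ _) k (NN.lt_add_one_iff.2 hk)⟩

/-- **A stable sequence.** -/
theorem exists_stable
    (lub : ∀ S : Set R, Intl N S → S.Nonempty → BddAbove S → ∃ c, IsLUB S c)
    (e : NN N → R) (he : DefF N e) (he0 : ∀ k, 0 < e k) (he1 : ∀ r, 0 < r → ∃ k, e k < r)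
    (hval : DefF N (fun p : Φ × E => val p.1 p.2)) (hB : DefF N B)
    (hIK : DefF N (fun p : NN N × NN N × Φ => IK p.1 p.2.1 p.2.2))
    (h0 : ∀ u x, 0 ≤ val u x) (hne : ∃ x, B x) (h1 : ∀ n M u x, IK n M u → B x → val u x ≤ 1)
    (f : NN N → Φ) [Intl N f] (hf : Ad IK f) :
    ∃ g : NN N → Φ, Intl N g ∧ (∀ n, ∃ M, n ≤ M ∧ IK n M (g n)) ∧
      ∀ h, Intl N h → Ad IK h → Do val g h → LeAdd val B g h 0 := by
  obtain ⟨G, hG, -, H⟩ := exists_intl_seq (N := N) (β := NN N → Φ)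
    (Inv := fun _ g => Ad IK g)
    (R := fun k g t => Do val g t ∧
      ∀ h : NN N → Φ, Intl N h → Ad IK h → Do val g h → LeAdd val B t h (e k))
    (defF_ad hIK (by fun_prop))
    (DefF.and (defF_do hval (by fun_prop) (by fun_prop)) (DefF.all (DefF.imp
      (defF_ad hIK (by fun_prop)) (DefF.imp (defF_do hval (by fun_prop) (by fun_prop))
        (defF_leAdd hval hB (by fun_prop) (by fun_prop) (by fun_prop))))))
    f hf (fun k g hg h => stable_step lub hval hB hIK h0 hne h1 hg h (he0 k))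
  have hGd : DefF N G := DefF.ofIntl G
  have h2 := DefF.ofIntl2 (N := N) G
  obtain ⟨m, hm, hm'⟩ := exists_intl_choiceT (N := N)
    (R := fun (n m : NN N) => (∃ M, n ≤ M ∧ IK n M (G n m)) ∧
      ∀ k, k ≤ n → Dm val (G k) n (G n m))
    (DefF.and (DefF.exT (DefF.and (by fun_prop)
      (DefF.comp (f := fun p : NN N × NN N × Φ => IK p.1 p.2.1 p.2.2)
        (g := fun q : (NN N × NN N) × NN N => (q.1.1, q.2, G q.1.1 q.1.2)) hIK (by fun_prop))))
      (DefF.allT (DefF.imp (by fun_prop)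
        (defF_dm hval (hGd.comp (by fun_prop)) (by fun_prop) (by fun_prop)))))
    (diag_step hval G (fun k => (H k).1) fun k => (H k).2.1)
  have hg : ∀ k, Do val (G k) fun n => G n (m n) := fun k =>
    do_of_forall k fun n hn => (hm' n).2 k hn
  refine ⟨fun n => G n (m n), DefF.toIntl (by fun_prop), fun n => (hm' n).1,
    fun h k1 k2 k3 r s hrs hh => ?_⟩
  obtain ⟨k, hk⟩ := he1 (s - r) (by linarith)
  exact OscLe.of_do ((H k).2.2 h k1 k2 ((hg k).trans k3) r s (by linarith) hh) (hg (k + 1))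

end Main

end Vale.Agent.P129B.Stb
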