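import Vale.Agent.P129BU.Kit
import Vale.Agent.P129BM.Spec

/-!
# The small API of the dichotomy of Hagler and Johnson; stable sequences
-/

set_option linter.unusedSectionVars false

namespace Vale.Agent.P129B

universe v

variable {N : Type v} [ZM N]
  {R : Type*} [Field R] [LinearOrder R] [IsStrictOrderedRing R] [Coded N R] [RF N R]
  {K : Type*} [Field K] [Algebra R K] [Nm K R] [KA R K] [Coded N K] [KF N R K]
  {E : Type*} [AddCommGroup E] [Module K E] [Nm E R] [NA R K E] [Coded N E] [NS N R K E]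
  {f g h k : NN N → Dual N K E} {n n' M M' L : NN N} {t s r : R} {u w : Dual N K E}

theorem inK_iff : InK f n M t u ↔ Stb.IK K f n M t u := Iff.rfl

theorem InK.mono [Intl N f] (H : InK f n M t u) (hn : n' ≤ n) (hM : M ≤ M') : InK f n' M' t u :=
  Stb.IK.mono (K := K) H hn hM

theorem InK.smul [Intl N f] (H : InK f n M t u) (c : K) : InK f n M (nm c * t) (c • u) :=
  Stb.IK.smul (K := K) H c

theorem InK.add [Intl N f] (H : InK f n M t u) (H' : InK f M L s w) (hn : n ≤ M) (hM : M ≤ L) :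
    InK f n L (t + s) (u + w) := Stb.IK.add (K := K) H H' hn hM

theorem InK.zero (f : NN N → Dual N K E) (n : NN N) : InK f n n (0 : R) 0 :=
  Stb.IK.zero (K := K) f n

theorem InK.nm_le [Intl N f] (H : InK f n M t u) (hf : ∀ i, nm (f i) ≤ 1) : nm u ≤ t :=
  Stb.IK.nm_le (K := K) H hf

theorem InK.self (f : NN N → Dual N K E) [Intl N f] (n : NN N) :
    InK f n (n + 1) (1 : R) (f n) := Stb.IK.self (K := K) f n

theorem ad_self (f : NN N → Dual N K E) [Intl N f] : Ad f f := Stb.ad_self (K := K) f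

theorem ad_of_forall [Intl N f] (H : ∀ n, ∃ M, n ≤ M ∧ InK f n M (1 : R) (h n)) : Ad f h :=
  Stb.ad_of_forall (IK := fun n M u => InK f n M (1 : R) u)
    (fun _ _ _ _ a b => b.mono a le_rfl) H

theorem Ad.block_step (hg : Ad f g) (n M : NN N) :
    ∃ n' M', n < n' ∧ M ≤ M' ∧ InK f M M' (1 : R) (g n') :=
  Stb.block_step (IK := fun n M u => InK f n M (1 : R) u) hg n M

theorem Dm.mono (H : Dm g n u) (hn : n' ≤ n) : Dm g n' u := fun x r a =>
  H x r fun j hj => a j (hn.trans hj)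

theorem Do.refl (g : NN N → Dual N K E) : Do g g := fun n => ⟨n, fun m hm _ _ a => a m hm⟩

theorem Do.trans (h1 : Do g h) (h2 : Do h k) : Do g k :=
  Stb.Do.trans (val := fun (u : Dual N K E) x => nm (u x)) h1 h2

theorem do_of_forall (l : NN N) (H : ∀ n, l ≤ n → Dm g n (h n)) : Do g h :=
  Stb.do_of_forall (val := fun (u : Dual N K E) x => nm (u x)) l H

theorem OscLe.mono (H : OscLe g r) (hrs : r ≤ s) : OscLe g s := fun x hx =>
  (H x hx).imp fun _ a n hn => (a n hn).trans hrs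

theorem OscLe.nonneg (H : OscLe g r) : 0 ≤ r := by
  obtain ⟨n₀, hn₀⟩ := H 0 (by simp)
  exact (nm_nonneg _).trans (hn₀ n₀ le_rfl)

theorem OscLe.of_do (hg : OscLe g r) (hd : Do g h) : OscLe h r :=
  Stb.OscLe.of_do (val := fun (u : Dual N K E) x => nm (u x)) (B := fun x => nm x ≤ 1) hg hd

theorem Ad.oscLe [Intl N f] (hf : ∀ i, nm (f i) ≤ 1) (hg : Ad f g) : OscLe g (1 : R) := by
  intro x hx
  obtain ⟨n₀, hn₀⟩ := hg 0
  refine ⟨n₀, fun n hn => ?_⟩
  obtain ⟨M, -, hM⟩ := hn₀ n hn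
  exact ((g n).le_nm_of_le_one hx).trans (hM.nm_le hf)

/-- A sequence of asymptotic size zero tends to zero at every point. -/
theorem nul_of_oscLe (H : ∀ r : R, 0 < r → OscLe g r) (x : E) : Nul g x := by
  intro ε hε
  have hc : 0 < nm x + 1 := by linarith [nm_nonneg x]
  have h1 : nm (algebraMap R K (nm x + 1)⁻¹ • x) ≤ 1 := by
    rw [nm_ofR_smul_of_nonneg (inv_pos.2 hc).le, inv_mul_le_iff₀ hc]
    linarith
  obtain ⟨n₀, hn₀⟩ := H (ε / (nm x + 1)) (div_pos hε hc) _ h1
  refine ⟨n₀, fun n hn => ?_⟩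
  have h2 := hn₀ n hn
  rw [Dual.smul_arg, KA.nm_mul, KA.nm_ofR_of_nonneg (inv_pos.2 hc).le, inv_mul_le_iff₀ hc,
    mul_div_cancel₀ _ hc.ne'] at h2
  exact h2

/-- **A stable sequence of normalised combinations.** -/
theorem exists_stable (f : NN N → Dual N K E) [Intl N f] (hf : ∀ i, nm (f i) ≤ 1) :
    ∃ g : NN N → Dual N K E, Intl N g ∧ (∀ n, ∃ M, n ≤ M ∧ InK f n M (1 : R) (g n)) ∧
      Stab f g :=
  Stb.exists_stable_ik (K := K) (fun (u : Dual N K E) x => u x) (by fun_prop) Dual.le_opNorm f hf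

/-- The row. -/
theorem stable : STABLE N R K E := fun f _ hf => exists_stable f hf

end Vale.Agent.P129B
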